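import Vale.Agent.P212.Spec.Space
import Vale.Agent.P212.Lit.Space

/-!
P212, bridge: the two descriptions of the Rips complex and of the functions vanishing at infinity
on it agree.
-/

open scoped ZeroAtInfty
open Filter Topology

namespace VP212.Bridge

variable {X : Type}

theorem norm_l1 (v : lp (fun _ : X => ℝ) 1) : ‖v‖ = ∑' x, |v x| := by
  rw [lp.norm_eq_tsum_rpow (by norm_num) v]
  simp [Real.norm_eq_abs]

variable [MetricSpace X] {R : ℝ}

/-- The coordinates of a point. -/
noncomputable def toPt (p : Rips X R) : Lit.RipsPt X R where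
  coeff x := p.1 x
  nonneg := p.2.1
  finite := p.2.2.2.1
  sum_one := by
    have h := p.2.2.1
    rw [norm_l1] at h
    rw [← h, ← tsum_eq_finsum (L := SummationFilter.unconditional X) p.2.2.2.1]
    exact tsum_congr fun x => (abs_of_nonneg (p.2.1 x)).symm
  diam := p.2.2.2.2

theorem memPt (p : Lit.RipsPt X R) : Memℓp p.coeff 1 := by
  refine memℓp_gen (summable_of_hasFiniteSupport ?_)
  refine p.finite.subset fun x hx => ?_
  intro h
  simp [h] at hx

/-- The point with given coordinates. -/
noncomputable def ofPt (p : Lit.RipsPt X R) : Rips X R :=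
  ⟨⟨p.coeff, memPt p⟩, p.nonneg, by
    rw [norm_l1, ← p.sum_one, ← tsum_eq_finsum (L := SummationFilter.unconditional X) p.finite]
    exact tsum_congr fun x => abs_of_nonneg (p.nonneg x), p.finite, p.diam⟩

theorem ofPt_apply (p : Lit.RipsPt X R) (x : X) : (ofPt p).1 x = p.coeff x := rfl

theorem sum_coeff (p : Lit.RipsPt X R) {U : Finset X} (hU : ∀ x, p.coeff x ≠ 0 → x ∈ U) :
    ∑ x ∈ U, p.coeff x = 1 := by
  rw [← p.sum_one]
  exact (finsum_eq_sum_of_support_subset _ fun x hx => hU x hx).symm

theorem dist_ofPt_le (p q : Lit.RipsPt X R) :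
    dist (ofPt p) (ofPt q) ≤ 2 * ∑ x ∈ q.finite.toFinset, |p.coeff x - q.coeff x| := by
  classical
  rw [Subtype.dist_eq, dist_eq_norm, norm_l1]
  show ∑' x, |p.coeff x - q.coeff x| ≤ _
  have hF : q.finite.toFinset ⊆ p.finite.toFinset ∪ q.finite.toFinset := Finset.subset_union_right
  rw [tsum_eq_sum (s := p.finite.toFinset ∪ q.finite.toFinset) fun x hx => by
    simp only [Finset.mem_union, Set.Finite.mem_toFinset, Set.mem_ofPred_eq, not_or, not_not] at hx
    simp [hx.1, hx.2]]
  have h1 := sum_coeff p (U := p.finite.toFinset ∪ q.finite.toFinset) fun x hx => by simp [hx]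
  have h2 := sum_coeff q (U := q.finite.toFinset) fun x hx => by simp [hx]
  rw [← Finset.sum_sdiff hF] at h1
  have h3 : ∑ x ∈ (p.finite.toFinset ∪ q.finite.toFinset) \ q.finite.toFinset,
      |p.coeff x - q.coeff x| =
      ∑ x ∈ (p.finite.toFinset ∪ q.finite.toFinset) \ q.finite.toFinset, p.coeff x :=
    Finset.sum_congr rfl fun x hx => by
      have : q.coeff x = 0 := by simpa using (Finset.mem_sdiff.1 hx).2
      rw [this, sub_zero, abs_of_nonneg (p.nonneg x)]
  have h4 : ∑ x ∈ q.finite.toFinset, (q.coeff x - p.coeff x) ≤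
      ∑ x ∈ q.finite.toFinset, |p.coeff x - q.coeff x| :=
    Finset.sum_le_sum fun x _ => by rw [abs_sub_comm]; exact le_abs_self _
  rw [Finset.sum_sub_distrib] at h4
  rw [← Finset.sum_sdiff hF, h3]
  linarith

theorem continuous_coeff (x : X) : Continuous fun p : Lit.RipsPt X R => p.coeff x :=
  (continuous_apply x).comp continuous_induced_dom

/-- The Rips complex in the topology of `l1` and in that of coordinates. -/
noncomputable def ripsHomeo : Rips X R ≃ₜ Lit.RipsPt X R where
  toFun := toPt
  invFun := ofPt
  left_inv _ := Subtype.ext (lp.ext rfl)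
  right_inv _ := rfl
  continuous_toFun :=
    continuous_induced_rng.2 (continuous_pi fun x => (continuous_coord x).comp continuous_subtype_val)
  continuous_invFun := by
    refine continuous_iff_continuousAt.2 fun q => tendsto_iff_dist_tendsto_zero.2 ?_
    refine squeeze_zero (fun p => dist_nonneg) (fun p => dist_ofPt_le p q) ?_
    have h : Continuous fun p : Lit.RipsPt X R =>
        2 * ∑ x ∈ q.finite.toFinset, |p.coeff x - q.coeff x| :=
      continuous_const.mul (continuous_finsetSum _ fun x _ =>
        ((continuous_coeff x).sub continuous_const).abs)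
    simpa using h.tendsto q

/-- Functions on coordinates as functions on the `l1` complex. -/
noncomputable def toC (f : Lit.C0Fun X R) : C₀(Rips X R, ℂ) where
  toFun p := f.toFun (ripsHomeo p)
  continuous_toFun := f.cont.comp ripsHomeo.continuous
  zero_at_infty' := f.vanish.comp ripsHomeo.isClosedEmbedding.tendsto_cocompact

/-- Functions on the `l1` complex as functions on coordinates. -/
noncomputable def toL (a : C₀(Rips X R, ℂ)) : Lit.C0Fun X R where
  toFun p := a (ripsHomeo.symm p)
  cont := (map_continuous a).comp ripsHomeo.symm.continuous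
  vanish := (zero_at_infty a).comp ripsHomeo.symm.isClosedEmbedding.tendsto_cocompact

theorem toC_apply (f : Lit.C0Fun X R) (p : Rips X R) : toC f p = f.toFun (ripsHomeo p) := rfl

theorem toL_apply (a : C₀(Rips X R, ℂ)) (p : Lit.RipsPt X R) :
    (toL a).toFun p = a (ripsHomeo.symm p) := rfl

theorem toC_toL (a : C₀(Rips X R, ℂ)) : toC (toL a) = a := by
  ext p
  rw [toC_apply, toL_apply, Homeomorph.symm_apply_apply]

theorem toC_restrict {R' : ℝ} (h : R ≤ R') (a : C₀(Rips X R', ℂ)) :
    toC ((toL a).restrict h) = ripsRestrict h a := by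
  ext p
  show a (ofPt ((toPt p).incl h)) = a (ripsIncl h p)
  exact congrArg a (Subtype.ext (lp.ext rfl))

end VP212.Bridge
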