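import Vale.Agent.P212.Spec.KHom
import Vale.Agent.P212.Lit.KHom
import Vale.Agent.P212.Bridge.Rips

/-!
P212, bridge: Fredholm modules and cycles, and their relations.
-/

open scoped InnerProductSpace ZeroAtInfty

namespace VP212.Bridge

variable {X : Type} [MetricSpace X] {R : ℝ}

/-- A separable space as a bundled one. -/
@[reducible] def hilb (H : Lit.HS.{0}) (h : H.Sep) : Hilb :=
  @Hilb.mk H.carrier H.normed H.inner H.complete h

/-- A bundled space without the separability. -/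
@[reducible] def hs (H : Hilb) : Lit.HS.{0} := @Lit.HS.mk H.carrier H.normed H.inner H.complete

theorem isAdj_iff {H K : Lit.HS.{0}} {T : Lit.Op H K} {S : Lit.Op K H} :
    Lit.IsAdj T S ↔ S = ContinuousLinearMap.adjoint T := by
  refine ⟨fun h => (ContinuousLinearMap.eq_adjoint_iff S T).2 fun y x => ?_, fun h x y => ?_⟩
  · rw [← inner_conj_symm, ← inner_conj_symm (𝕜 := ℂ) y (T x)]
    exact congrArg _ (h x y).symm
  · subst h
    exact (ContinuousLinearMap.adjoint_inner_right T x y).symm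

/-- The representation of a cycle on the `l1` complex. -/
noncomputable def toHom {H : Lit.HS.{0}} {r : Lit.C0Fun X R → Lit.Op H H} (h : Lit.IsRep r) :
    C₀(Rips X R, ℂ) →⋆ₙₐ[ℂ] (H.carrier →L[ℂ] H.carrier) where
  toFun a := r (toL a)
  map_smul' c a := ContinuousLinearMap.ext fun v => h.2.1 c _ _ (fun _ => rfl) v
  map_zero' := ContinuousLinearMap.ext fun v => by
    have := h.2.1 0 (toL (0 : C₀(Rips X R, ℂ))) (toL 0) (fun p => by simp [toL_apply]) v
    simpa [Lit.app] using this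
  map_add' a b := ContinuousLinearMap.ext fun v => h.1 _ _ _ (fun _ => rfl) v
  map_mul' a b := ContinuousLinearMap.ext fun v => h.2.2.1 _ _ _ (fun _ => rfl) v
  map_star' a := isAdj_iff.1 (h.2.2.2 (toL a) (toL (star a)) fun _ => rfl)

/-- The Fredholm module of the axioms. -/
noncomputable def fredOf {H0 H1 : Lit.HS.{0}} {r0 : Lit.C0Fun X R → Lit.Op H0 H0}
    {r1 : Lit.C0Fun X R → Lit.Op H1 H1} {W : Lit.Op H0 H1} {V : Lit.Op H1 H0}
    (h : Lit.IsFred r0 r1 W V) : FredMod (C₀(Rips X R, ℂ)) where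
  H0 := hilb H0 h.1
  H1 := hilb H1 h.2.1
  ρ0 := toHom h.2.2.1
  ρ1 := toHom h.2.2.2.1
  W := W
  V := V
  commW a := (h.2.2.2.2 (toL a)).1
  commV a := (h.2.2.2.2 (toL a)).2.1
  sq0 a := (h.2.2.2.2 (toL a)).2.2.1
  sq1 a := (h.2.2.2.2 (toL a)).2.2.2.1
  selfAdj a := by
    obtain ⟨W', hW', hc⟩ := (h.2.2.2.2 (toL a)).2.2.2.2
    rw [isAdj_iff.1 hW'] at hc
    exact hc

/-- A cycle as a Fredholm module. -/
noncomputable def toFred (M : Lit.Cycle X R) : FredMod (C₀(Rips X R, ℂ)) := fredOf M.fred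

theorem isRep_comp {H : Hilb} (ρ : C₀(Rips X R, ℂ) →⋆ₙₐ[ℂ] (H.carrier →L[ℂ] H.carrier)) :
    Lit.IsRep (H := hs H) fun f : Lit.C0Fun X R => ρ (toC f) := by
  refine ⟨fun f g h hh v => ?_, fun c f h hh v => ?_, fun f g h hh v => ?_,
    fun f h hh => isAdj_iff.2 ?_⟩
  · dsimp only
    rw [show toC h = toC f + toC g by ext p; exact hh _, map_add]
    rfl
  · dsimp only
    rw [show toC h = c • toC f by ext p; exact hh _, map_smul]
    rfl
  · dsimp only
    rw [show toC h = toC f * toC g by ext p; exact hh _, map_mul]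
    rfl
  · dsimp only
    rw [show toC h = star (toC f) by ext p; exact hh _, map_star]
    exact ContinuousLinearMap.star_eq_adjoint _

/-- A Fredholm module as a cycle. -/
noncomputable def ofFred (M : FredMod (C₀(Rips X R, ℂ))) : Lit.Cycle X R :=
  ⟨hs M.H0, hs M.H1, fun f => M.ρ0 (toC f), fun f => M.ρ1 (toC f), M.W, M.V,
    M.H0.separable, M.H1.separable, isRep_comp M.ρ0, isRep_comp M.ρ1, fun f =>
    ⟨M.commW _, M.commV _, M.sq0 _, M.sq1 _, ContinuousLinearMap.adjoint M.W, isAdj_iff.2 rfl,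
      M.selfAdj _⟩⟩

theorem unitary_ofFred_push {R' : ℝ} (h : R ≤ R') (M : FredMod (C₀(Rips X R, ℂ))) :
    UnitaryEquiv (toFred ((ofFred M).push h)) (M.pull (ripsRestrict h)) := by
  refine ⟨LinearIsometryEquiv.refl ℂ M.H0.carrier, LinearIsometryEquiv.refl ℂ M.H1.carrier,
    fun a x => ?_, fun a x => ?_, fun _ => rfl, fun _ => rfl⟩
  · show M.ρ0 (toC ((toL a).restrict h)) x = M.ρ0 (ripsRestrict h a) x
    rw [toC_restrict]
  · show M.ρ1 (toC ((toL a).restrict h)) x = M.ρ1 (ripsRestrict h a) x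
    rw [toC_restrict]

/-- A unitary operator as an isometric equivalence. -/
noncomputable def toEquiv {H K : Lit.HS.{0}} (U : Lit.Op H K) (h : Lit.IsUnitary U) :
    H.carrier ≃ₗᵢ[ℂ] K.carrier :=
  LinearIsometryEquiv.ofSurjective ⟨U.toLinearMap, h.1⟩ h.2

theorem unitaryEquiv_of {M N : Lit.Cycle X R} (h : Lit.UnitEquiv M N) :
    UnitaryEquiv (toFred M) (toFred N) := by
  obtain ⟨U0, U1, h0, h1, hr0, hr1, hW, hV⟩ := h
  exact ⟨toEquiv U0 h0, toEquiv U1 h1, fun a x => hr0 (toL a) x, fun a x => hr1 (toL a) x, hW, hV⟩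

theorem continuous_of_normCont {H K : Lit.HS.{0}} {W : ℝ → Lit.Op H K} (h : Lit.NormCont W) :
    Continuous W := by
  refine Metric.continuous_iff.2 fun t ε hε => ?_
  obtain ⟨δ, hδ, hW⟩ := h t (ε / 2) (half_pos hε)
  refine ⟨δ, hδ, fun s hs => ?_⟩
  rw [Real.dist_eq] at hs
  rw [dist_eq_norm]
  exact (ContinuousLinearMap.opNorm_le_bound _ (half_pos hε).le (hW s hs)).trans_lt (half_lt_self hε)

theorem homotopic_of {M N : Lit.Cycle X R} (h : Lit.Homotopic M N) :
    OperatorHomotopic (toFred M) (toFred N) := by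
  obtain ⟨H0, H1, r0, r1, W, V, h, hW, hV, rfl, rfl⟩ := h
  exact ⟨hilb H0 (h 0).1, hilb H1 (h 0).2.1, toHom (h 0).2.2.1, toHom (h 0).2.2.2.1, W, V,
    fun t => (fredOf (h t)).commW, fun t => (fredOf (h t)).commV, fun t => (fredOf (h t)).sq0,
    fun t => (fredOf (h t)).sq1, fun t => (fredOf (h t)).selfAdj,
    continuous_of_normCont hW, continuous_of_normCont hV, rfl, rfl⟩

/-- An orthogonal splitting as an isometric equivalence. -/
noncomputable def splitEquiv {H K D : Lit.HS.{0}} (i : Lit.Op H D) (j : Lit.Op K D)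
    (h : Lit.Splits i j) : WithLp 2 (H.carrier × K.carrier) ≃ₗᵢ[ℂ] D.carrier :=
  LinearIsometryEquiv.ofSurjective
    ⟨(i.coprod j).toLinearMap.comp (WithLp.linearEquiv 2 ℂ (H.carrier × K.carrier)).toLinearMap,
      fun x => by
        refine (sq_eq_sq₀ (norm_nonneg _) (norm_nonneg _)).1 ?_
        rw [WithLp.prod_norm_sq_eq_of_L2]
        exact h.1 _ _⟩
    fun z => by
      obtain ⟨x, y, hxy⟩ := h.2 z
      exact ⟨WithLp.toLp 2 (x, y), hxy⟩

theorem splitEquiv_apply {H K D : Lit.HS.{0}} (i : Lit.Op H D) (j : Lit.Op K D)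
    (h : Lit.Splits i j) (x : H.carrier) (y : K.carrier) :
    splitEquiv i j h (WithLp.toLp 2 (x, y)) = i x + j y := rfl

theorem isSum_of {M N D : Lit.Cycle X R} (h : Lit.IsSum M N D) :
    IsSum (toFred M) (toFred N) (toFred D) := by
  obtain ⟨i0, j0, i1, j1, s0, s1, a0, b0, a1, b1, aW, bW, aV, bV⟩ := h
  refine ⟨splitEquiv i0 j0 s0, splitEquiv i1 j1 s1, fun a x y => ?_, fun a x y => ?_,
    fun x y => ?_, fun x y => ?_⟩
  · show Lit.app (D.r0 (toL a)) (i0 x + j0 y) = i0 _ + j0 _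
    exact (map_add (D.r0 (toL a)) (i0 x) (j0 y)).trans (congrArg₂ (· + ·) (a0 _ x) (b0 _ y))
  · show Lit.app (D.r1 (toL a)) (i1 x + j1 y) = i1 _ + j1 _
    exact (map_add (D.r1 (toL a)) (i1 x) (j1 y)).trans (congrArg₂ (· + ·) (a1 _ x) (b1 _ y))
  · show Lit.app D.W (i0 x + j0 y) = i1 _ + j1 _
    exact (map_add D.W (i0 x) (j0 y)).trans (congrArg₂ (· + ·) (aW x) (bW y))
  · show Lit.app D.V (i1 x + j1 y) = i0 _ + j0 _
    exact (map_add D.V (i1 x) (j1 y)).trans (congrArg₂ (· + ·) (aV x) (bV y))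

/-- The class of a cycle. -/
noncomputable def cycleClass : FreeAbelianGroup (Lit.Cycle X R) →+ KHom (C₀(Rips X R, ℂ)) :=
  FreeAbelianGroup.lift fun M => kClass (toFred M)

theorem cycleClass_relations {z : FreeAbelianGroup (Lit.Cycle X R)}
    (hz : z ∈ Lit.relations X R) : cycleClass z = 0 := by
  rcases hz with ⟨M, N, h, rfl⟩ | ⟨M, N, D, h, rfl⟩
  · simp only [cycleClass, map_sub, FreeAbelianGroup.lift_apply_of]
    exact (QuotientAddGroup.eq_zero_iff _).2 (AddSubgroup.subset_closure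
      (Or.inl ⟨toFred M, toFred N, h.imp unitaryEquiv_of homotopic_of, rfl⟩))
  · simp only [cycleClass, map_sub, map_add, FreeAbelianGroup.lift_apply_of]
    exact (QuotientAddGroup.eq_zero_iff _).2 (AddSubgroup.subset_closure
      (Or.inr ⟨toFred M, toFred N, toFred D, isSum_of h, rfl⟩))

theorem kClass_zero_of_killed {R' : ℝ} (h : R ≤ R') (M : FredMod (C₀(Rips X R, ℂ))) {k : ℕ}
    (hk : Lit.KilledBy k ((ofFred M).push h)) :
    k • kClass (M.pull (ripsRestrict h)) = 0 := by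
  have h0 : cycleClass (k • FreeAbelianGroup.of ((ofFred M).push h)) = 0 :=
    (AddSubgroup.closure_le (K := (cycleClass (X := X) (R := R')).ker)).2
      (fun z hz => cycleClass_relations hz) hk
  have h1 : kClass (toFred ((ofFred M).push h)) = kClass (M.pull (ripsRestrict h)) :=
    sub_eq_zero.1 ((QuotientAddGroup.eq_zero_iff _).2 (AddSubgroup.subset_closure
      (Or.inl ⟨_, _, Or.inl (unitary_ofFred_push h M), rfl⟩)))
  rw [map_nsmul] at h0
  rw [← h1, ← h0]
  simp [cycleClass]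

end VP212.Bridge
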