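import Vale.Agent.P212.Spec.Assembly
import Vale.Agent.P212.Lit.Statement
import Vale.Agent.P212.Bridge.Cycle

/-!
P212, bridge: the geometric clauses and the entries of the index idempotent.
-/

open scoped InnerProductSpace ZeroAtInfty

namespace VP212.Bridge

variable {X : Type} [MetricSpace X] {r : ℝ}

theorem nondeg_of {H : Hilb} {ρ : C₀(Rips X r, ℂ) →⋆ₙₐ[ℂ] (H.carrier →L[ℂ] H.carrier)}
    (h : Nondegenerate ρ) : Lit.Nondeg (H := hs H) fun f : Lit.C0Fun X r => ρ (toC f) := by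
  intro (v : H.carrier) hv
  let K : Submodule ℂ H.carrier := LinearMap.ker (innerSL ℂ v).toLinearMap
  have hle : Submodule.span ℂ {x | ∃ a w, ρ a w = x} ≤ K := by
    refine Submodule.span_le.2 ?_
    rintro x ⟨a, w, rfl⟩
    show ⟪v, ρ a w⟫_ℂ = 0
    have h0 : ρ (star a) v = 0 := by
      have := hv (toL (star a))
      dsimp only at this
      rwa [toC_toL] at this
    rw [map_star, ContinuousLinearMap.star_eq_adjoint] at h0
    rw [← ContinuousLinearMap.adjoint_inner_left (ρ a) w v, h0, inner_zero_left]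
  have hz : ∀ x, ⟪v, x⟫_ℂ = 0 := fun x =>
    congrFun ((h.mono hle).denseRange_val.equalizer ((innerSL ℂ v).continuous.comp continuous_id)
      (continuous_const (y := (0 : ℂ))) (funext fun y : K => y.2)) x
  exact inner_self_eq_zero.1 (hz v)

theorem farApart_of {f g : Lit.C0Fun X r} {S : ℝ}
    (h : ∀ p q : Lit.RipsPt X r, f.toFun p ≠ 0 → g.toFun q ≠ 0 →
      ∀ y z, p.coeff y ≠ 0 → q.coeff z ≠ 0 → S < dist y z) :
    FarApart (toC f) (toC g) S :=
  fun p q hp hq => h (ripsHomeo p) (ripsHomeo q) hp hq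

theorem propagates_of {M : FredMod (C₀(Rips X r, ℂ))} (h : IsGeometric M) :
    ∃ S, Lit.Propagates (ofFred M).r0 (ofFred M).r1 (ofFred M).W S ∧
      Lit.Propagates (ofFred M).r1 (ofFred M).r0 (ofFred M).V S := by
  obtain ⟨-, -, S, hS⟩ := h
  exact ⟨S, fun f g hfg v => DFunLike.congr_fun (hS _ _ (farApart_of hfg)).1 v,
    fun f g hfg v => DFunLike.congr_fun (hS _ _ (farApart_of hfg)).2 v⟩

theorem covering_of {H : Hilb} {ρ : C₀(Rips X r, ℂ) →⋆ₙₐ[ℂ] (H.carrier →L[ℂ] H.carrier)}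
    {J : H.carrier →L[ℂ] RoeSpace X} (h : IsCovering ρ J) :
    Lit.IsCovering (H := hs H) (fun f : Lit.C0Fun X r => ρ (toC f)) J := by
  obtain ⟨h1, S, hS⟩ := h
  exact ⟨h1, S, fun f x hf v k => hS (toC f) x (fun p hp => hf (ripsHomeo p) hp) v k⟩

theorem indexData_of (M : FredMod (C₀(Rips X r, ℂ))) (J0 : M.H0.carrier →L[ℂ] RoeSpace X)
    (J1 : M.H1.carrier →L[ℂ] RoeSpace X) :
    Lit.IsIndexData (ofFred M) J0 J1 (indexEntry M J0 J1) :=
  ⟨ContinuousLinearMap.adjoint J0, ContinuousLinearMap.adjoint J1,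
    isAdj_iff (H := hs M.H0) (K := Lit.roeHS X) |>.2 rfl,
    isAdj_iff (H := hs M.H1) (K := Lit.roeHS X) |>.2 rfl,
    fun _ => ⟨rfl, rfl, rfl, rfl⟩⟩

end VP212.Bridge
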