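import Vale.Agent.P212.Bridge.Roe
import Vale.Agent.P212.Bridge.Vanish

/-!
P212, bridge: the printable statement follows from the working one.
-/

open scoped ZeroAtInfty

namespace VP212.Bridge

theorem assemblyVanishes_of {X : Type} [MetricSpace X] {r : ℝ}
    {M : FredMod (C₀(Rips X r, ℂ))} (h : AssemblyVanishes M) :
    Lit.AssemblyVanishes (ofFred M) := by
  obtain ⟨hgeo, J0, J1, hJ0, hJ1, hRoe, A, hA, hK⟩ := h
  obtain ⟨A2, hA2, hK2⟩ := sameK0_lit (indexEntry M J0 J1) A hA hK
  exact ⟨nondeg_of hgeo.1, nondeg_of hgeo.2.1, propagates_of hgeo,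
    J0, J1, indexEntry M J0 J1, covering_of hJ0, covering_of hJ1, indexData_of M J0 J1,
    fun i j => isRoe_lit (hRoe i j), A2, hA2, hK2⟩

/-- The printable statement follows from the working one. -/
theorem bridge : VP212.Disproof → Lit.Disproof := by
  rintro ⟨X, inst, hU, hB, hN, r, M, hA, hT⟩
  exact ⟨X, inst, hU, hB, maxNormFinite_lit hN, r, ofFred M, assemblyVanishes_of hA,
    fun R h k hk hkill => hT R h k hk (kClass_zero_of_killed h M hkill)⟩

end VP212.Bridge
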