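import Vale.Agent.P212.Spec.Roe
import Vale.Agent.P212.Lit.Statement

/-!
P212, bridge to the printable statement, Roe half: membership of the algebraic Roe algebra,
finiteness of the universal norm and equality of K0 classes.
-/

open scoped InnerProductSpace

namespace VP212.Bridge

variable {X : Type}

theorem inner_delta (x : X) (k : ℕ) (v : RoeSpace X) : ⟪delta x k, v⟫_ℂ = v (x, k) := by
  classical
  rw [delta, lp.inner_single_left]
  simp

theorem delta_apply_ne {x y : X} (k l : ℕ) (h : y ≠ x) : delta x k (y, l) = 0 := by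
  classical
  rw [delta, lp.single_apply, Pi.single_eq_of_ne]
  exact fun e => h (congrArg Prod.fst e)

variable [MetricSpace X]

/-- Membership of `C[X]` is the same in both forms. -/
theorem isRoe_iff {T : RoeSpace X →L[ℂ] RoeSpace X} : IsRoe T ↔ Lit.IsRoe (X := X) T := by
  constructor
  · rintro ⟨⟨R, hR⟩, hc⟩
    refine ⟨⟨R, ?_⟩, fun x y e e' he he' => hc x y e e' he he'⟩
    intro (v : RoeSpace X) x hv k
    show T v (x, k) = 0
    rw [← inner_delta]
    classical
    have h := (lp.hasSum_single (E := fun _ : X × ℕ => ℂ) (by simp : (2 : ENNReal) ≠ ⊤) v).map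
      ((innerSL ℂ (delta x k)).comp T) (ContinuousLinearMap.continuous _)
    have h0 : ∀ i : X × ℕ, ⟪delta x k, T (lp.single 2 i (v i))⟫_ℂ = 0 := by
      rintro ⟨y, l⟩
      by_cases hd : dist x y ≤ R
      · have : v (y, l) = 0 := hv y l hd
        simp [this]
      · have hs : lp.single 2 (y, l) (v (y, l)) = (v (y, l)) • delta y l := by
          rw [delta, ← lp.single_smul, smul_eq_mul, mul_one]
        rw [hs, map_smul, inner_smul_right, hR x y k l (not_le.1 hd), mul_zero]
    refine (h.congr_fun fun i => ?_).unique hasSum_zero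
    exact (h0 i).symm
  · rintro ⟨⟨R, hR⟩, hc⟩
    refine ⟨⟨R, fun x y k l hxy => ?_⟩, fun x y e e' he he' => hc x y e e' he he'⟩
    rw [inner_delta]
    exact hR (delta y l) x
      (fun z m hz => delta_apply_ne l m fun e => (not_le.2 hxy) (e ▸ hz)) k

/-- An element of `C[X]` in the second form. -/
theorem isRoe_lit {T : RoeSpace X →L[ℂ] RoeSpace X} (h : IsRoe T) : Lit.IsRoe (X := X) T :=
  isRoe_iff.1 h

/-- A representation in the second form. -/
def toLit (ρ : RoeRep X) : Lit.Rep X where
  H := ⟨ρ.carrier⟩
  π := ρ.π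
  map_add S T U hS hT hU w := by
    have e : U = S + T := ContinuousLinearMap.ext hU
    subst e
    exact DFunLike.congr_fun (ρ.map_add S T (isRoe_iff.2 hS) (isRoe_iff.2 hT)) w
  map_smul c S U hS hU w := by
    have e : U = c • S := ContinuousLinearMap.ext hU
    subst e
    exact DFunLike.congr_fun (ρ.map_smul c S (isRoe_iff.2 hS)) w
  map_mul S T U hS hT hU w := by
    have e : U = S * T := ContinuousLinearMap.ext hU
    subst e
    exact DFunLike.congr_fun (ρ.map_mul S T (isRoe_iff.2 hS) (isRoe_iff.2 hT)) w
  map_star := fun (S : RoeSpace X →L[ℂ] RoeSpace X) (U : RoeSpace X →L[ℂ] RoeSpace X) hS hSU => by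
    have e : U = star S :=
      ContinuousLinearMap.ext fun y => ext_inner_left ℂ fun x => by
        rw [ContinuousLinearMap.star_eq_adjoint, ContinuousLinearMap.adjoint_inner_right]
        exact (hSU x y).symm
    subst e
    intro x y
    show ⟪ρ.π S x, y⟫_ℂ = ⟪x, ρ.π (star S) y⟫_ℂ
    rw [ρ.map_star S (isRoe_iff.2 hS), ContinuousLinearMap.star_eq_adjoint,
      ContinuousLinearMap.adjoint_inner_right]

/-- A representation in the first form. -/
def ofLit (ρ : Lit.Rep X) : RoeRep X where
  carrier := ρ.H.carrier
  π := ρ.π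
  map_add S T hS hT := ContinuousLinearMap.ext fun w =>
    ρ.map_add S T (S + T) (isRoe_iff.1 hS) (isRoe_iff.1 hT) (fun _ => rfl) w
  map_smul c S hS := ContinuousLinearMap.ext fun w =>
    ρ.map_smul c S (c • S) (isRoe_iff.1 hS) (fun _ => rfl) w
  map_mul S T hS hT := ContinuousLinearMap.ext fun w =>
    ρ.map_mul S T (S * T) (isRoe_iff.1 hS) (isRoe_iff.1 hT) (fun _ => rfl) w
  map_star S hS := by
    have h : Lit.IsAdj (ρ.π S) (ρ.π (star S)) := ρ.map_star S (star S) (isRoe_iff.1 hS)
      fun (x y : RoeSpace X) => by
        show ⟪S x, y⟫_ℂ = ⟪x, star S y⟫_ℂ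
        rw [ContinuousLinearMap.star_eq_adjoint, ContinuousLinearMap.adjoint_inner_right]
    refine ContinuousLinearMap.ext fun y => ext_inner_left ℂ fun x => ?_
    exact (h x y).symm.trans
      (by rw [ContinuousLinearMap.star_eq_adjoint, ContinuousLinearMap.adjoint_inner_right]; rfl)

/-- The two kinds of representations correspond. -/
def repEquiv : RoeRep X ≃ Lit.Rep X where
  toFun := toLit
  invFun := ofLit
  left_inv _ := rfl
  right_inv _ := rfl

variable (X) in
/-- The universal space of the second form. -/
abbrev LitUniv : Type 1 := lp (fun π : Lit.Rep X => π.H.carrier) 2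

theorem hasSum_reindex (v : UnivSpace X) :
    HasSum (fun π : Lit.Rep X => ‖(v (ofLit π) : π.H.carrier)‖ ^ (2 : ENNReal).toReal)
      (‖v‖ ^ (2 : ENNReal).toReal) :=
  (repEquiv.symm.hasSum_iff (f := fun ρ : RoeRep X => ‖v ρ‖ ^ (2 : ENNReal).toReal)).2
    (lp.hasSum_norm (by norm_num) v)

/-- Reindexing. -/
noncomputable def toUniv : UnivSpace X →ₗᵢ[ℂ] LitUniv X where
  toFun v := ⟨fun π => v (ofLit π), memℓp_gen (hasSum_reindex v).summable⟩
  map_add' v w := rfl
  map_smul' c v := rfl
  norm_map' v := by
    have h := lp.hasSum_norm (E := fun π : Lit.Rep X => π.H.carrier) (p := 2) (by norm_num)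
      ⟨fun π => v (ofLit π), memℓp_gen (hasSum_reindex v).summable⟩
    have := h.unique (hasSum_reindex v)
    exact (Real.rpow_left_inj (norm_nonneg _) (norm_nonneg _) (by norm_num)).1 this

theorem toUniv_surjective : Function.Surjective (toUniv (X := X)) := fun w => by
  refine ⟨⟨fun ρ => w (toLit ρ), memℓp_gen ?_⟩, ?_⟩
  · exact (repEquiv.summable_iff
      (f := fun π : Lit.Rep X => ‖w π‖ ^ (2 : ENNReal).toReal)).2 (lp.hasSum_norm (by norm_num) w).summable
  · ext π : 2
    rfl

/-- The unitary between the universal spaces. -/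
noncomputable def univU : UnivSpace X ≃ₗᵢ[ℂ] LitUniv X :=
  LinearIsometryEquiv.ofSurjective toUniv toUniv_surjective

theorem univU_apply (v : UnivSpace X) (π : Lit.Rep X) : univU v π = v (ofLit π) := rfl

theorem univU_symm_apply (w : LitUniv X) (π : Lit.Rep X) : univU.symm w (ofLit π) = w π := by
  rw [← univU_apply, LinearIsometryEquiv.apply_symm_apply]

/-- Transport of operators. -/
noncomputable def move (A : UnivSpace X →L[ℂ] UnivSpace X) :
    Lit.Op (Lit.univHS X) (Lit.univHS X) :=
  (univU (X := X)).toLinearIsometry.toContinuousLinearMap.comp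
    (A.comp (univU (X := X)).symm.toLinearIsometry.toContinuousLinearMap)

theorem move_apply (A : UnivSpace X →L[ℂ] UnivSpace X) (v : (Lit.univHS X).carrier) :
    Lit.app (move A) v = univU (A (univU.symm v)) := rfl

theorem move_image {T : RoeSpace X →L[ℂ] RoeSpace X} {A : UnivSpace X →L[ℂ] UnivSpace X}
    (hA : IsUnivImage T A) : Lit.IsImage T (move A) := by
  intro v π
  show (univU (A (univU.symm v)) : LitUniv X) π = π.π T ((id v : LitUniv X) π)
  rw [univU_apply, hA]
  exact congrArg (π.π T) (univU_symm_apply v π)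

/-- The universal norm is finite in the second form. -/
theorem maxNormFinite_lit (h : MaxNormFinite X) : Lit.MaxNormFinite X := fun T hT => by
  obtain ⟨A, hA⟩ := h T (isRoe_iff.2 hT)
  exact ⟨move A, move_image hA⟩

theorem move_mem {A : UnivSpace X →L[ℂ] UnivSpace X} (hA : A ∈ maxRoeUnit X) :
    Lit.InUnit (move A) := by
  obtain ⟨z, B, hB, rfl⟩ := hA
  refine ⟨z, move B, fun ε hε => ?_, fun (v : LitUniv X) => ?_⟩
  · obtain ⟨B', ⟨T, hT, hTB⟩, hd⟩ := Metric.mem_closure_iff.1 hB ε hε
    refine ⟨T, move B', isRoe_iff.1 hT, move_image hTB, fun v => ?_⟩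
    rw [move_apply, move_apply]
    show ‖univU (B (univU.symm v)) - univU (B' (univU.symm v))‖ ≤ _
    rw [← map_sub, LinearIsometryEquiv.norm_map, ← sub_apply]
    refine ((B - B').le_opNorm _).trans ?_
    rw [dist_eq_norm] at hd
    refine mul_le_mul hd.le (le_of_eq ?_) (norm_nonneg _) hε.le
    exact univU.symm.norm_map v
  · show univU ((z • 1 + B) (univU.symm v)) = z • v + univU (B (univU.symm v))
    rw [add_apply, map_add, smul_apply, map_smul]
    exact congrArg (fun w : LitUniv X => z • w + univU (B (univU.symm v)))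
      (univU.apply_symm_apply v)

/-- Equality of K0 classes in the second form. -/
theorem sameK0_lit (T : Fin 2 → Fin 2 → (RoeSpace X →L[ℂ] RoeSpace X))
    (A : Fin 2 → Fin 2 → (UnivSpace X →L[ℂ] UnivSpace X))
    (hA : ∀ i j, IsUnivImage (T i j) (A i j))
    (hK : SameK0 (maxRoeUnit X) (Matrix.diagonal ![0, 1] + Matrix.of A)
      (Matrix.diagonal ![0, 1])) :
    ∃ A2 : Fin 2 → Fin 2 → Lit.Op (Lit.univHS X) (Lit.univHS X),
      (∀ i j, Lit.IsImage (T i j) (A2 i j)) ∧
      Lit.SameK0 (fun i j v => Lit.baseIdem i j v + Lit.app (A2 i j) v) Lit.baseIdem := by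
  refine ⟨fun i j => move (A i j), fun i j => move_image (hA i j), ?_⟩
  obtain ⟨m, n, a, b, ha, hb, hab, hba⟩ := hK
  refine ⟨m, n, fun i j => move (a i j), fun i j => move (b i j),
    fun i j => move_mem (ha i j), fun i j => move_mem (hb i j), fun i j v => ?_, fun i j v => ?_⟩
  · have h := congrArg (fun M : Matrix _ _ (UnivSpace X →L[ℂ] UnivSpace X) =>
      univU (M i j (univU.symm v))) hab
    simp only [Matrix.mul_apply, sum_apply, map_sum] at h
    refine (Finset.sum_congr rfl fun k _ => ?_).trans (h.trans ?_)
    · show univU (a i k (univU.symm (univU (b k j (univU.symm v))))) = _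
      rw [LinearIsometryEquiv.symm_apply_apply]
      rfl
    · rcases i with i | i | i <;> rcases j with j | j | j <;>
        simp [Matrix.fromBlocks, Lit.stab, Lit.baseIdem, Matrix.one_apply, Matrix.diagonal_apply,
          move_apply, apply_ite, map_add]
      all_goals try fin_cases i <;> fin_cases j <;> simp
      all_goals
        first
          | rfl
          | exact univU.apply_symm_apply v
          | exact (zero_add _).symm
          | exact congrArg (fun w : LitUniv X => w + univU (A _ _ (univU.symm v)))
              (univU.apply_symm_apply v)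
          | (split <;> first | rfl | exact univU.apply_symm_apply v)
  · have h := congrArg (fun M : Matrix _ _ (UnivSpace X →L[ℂ] UnivSpace X) =>
      univU (M i j (univU.symm v))) hba
    simp only [Matrix.mul_apply, sum_apply, map_sum] at h
    refine (Finset.sum_congr rfl fun k _ => ?_).trans (h.trans ?_)
    · show univU (b i k (univU.symm (univU (a k j (univU.symm v))))) = _
      rw [LinearIsometryEquiv.symm_apply_apply]
      rfl
    · rcases i with i | i | i <;> rcases j with j | j | j <;>
        simp [Matrix.fromBlocks, Lit.stab, Lit.baseIdem, Matrix.one_apply, Matrix.diagonal_apply,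
          apply_ite]
      all_goals try fin_cases i <;> fin_cases j <;> simp
      all_goals
        first
          | rfl
          | exact univU.apply_symm_apply v
          | exact (zero_add _).symm
          | exact congrArg (fun w : LitUniv X => w + univU (A _ _ (univU.symm v)))
              (univU.apply_symm_apply v)
          | (split <;> first | rfl | exact univU.apply_symm_apply v)

end VP212.Bridge
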